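import Vale.Agent.P269.San2.Fin

/-!
# On a cubic surface only the degree one contributes to the genus zero invariants without insertions
-/

namespace Vale.Agent.P269L.J

open P291Z Set Function Filter MvPolynomial P269 P269.San2 P269.Fam

theorem cor_dim {J K : Type} [Fintype J] [Fintype K] [Nonempty J] {G : K → MvPolynomial J ℂ}
    {d : K → ℕ} (h : SmCI G d) {k : ℕ} (hk : 30 ≤ k) {β} {e : Unit → ℤ} {j : ℤ}
    (hz : (ciF G d).cor k ((ciF G d).exK (ciF G d).cone β) 0 (ciF G d).cone (ciF G d).cone e j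
      [] [] [] ≠ 0) :
    (ciF G d).vdim (Fin 0 ⊕ Fin 0) (Fin 0) univ 0 0 (j + 1) e = 0 := by
  classical
  have o := h.tg.one h.nice (ciF_big hk)
  obtain ⟨_, b⟩ := o.pt
  have hP := (h.tg.exOk_exK (k := k) β).sel (Fin 0 ⊕ Fin 0) (Fin 0) (j + 1) e 0
  have e0 := (ciF G d).cor_ofFnP k ((ciF G d).exK _ β).P 1 e j (n := 0) Fin.elim0
  rw [List.ofFn_zero] at e0
  obtain ⟨D, ⟨e1, hc⟩, hD⟩ := (((o.corP_ev St.well hP 1 Fin.elim0).and hP.2).and
    ((ciF G d).eventually_bigD k)).exists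
  have gz := o.gz' (Fin 0 ⊕ Fin 0) (Fin 0) hD (j + 1) e 0
  have := o.compactSpace (ν := Fin 0 ⊕ Fin 0) (κ := Fin 0) (g := j + 1) (d := e) (u := 0) hD
  have := gz.nice
  obtain ⟨n, φ, _, _, hs⟩ := h.nice.sh
  have i : IsEmpty (Fin n) := ⟨fun i => (hs.free i).2.1 (o.abs.1 (hs.free i).1)⟩
  have hv := o.good.vir_deg' (ν := Fin 0 ⊕ Fin 0) (Fin 0) h.tg.reg (Th.sm_zero b) h.nice.pol hs o.big
    hD (j + 1) e 0
  rw [show (fun s => (0 : Fin 0 ⊕ Fin 0 → ℕ) s • (0 : J → ℕ)) = 0 from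
    funext fun _ => smul_zero _, Fintype.card_eq_zero] at hv
  refine by_contra fun c => hz (e0.trans (e1.trans ?_))
  rw [intg_sel gz _ hc (gz.at_fsF _ _), gz.prod_fsF, map_one, Ch.insC, List.ofFn_zero, List.prod_nil,
    mul_one, OneMemClass.coe_one, mul_one]
  exact Loc.intg_deg hv (hcls_isDeg (k := 0) (ind_eq_fn _ ▸ isDeg_fn _)) (by omega)

theorem cubic_deg (N r : ℕ) (d : Fin r → ℕ) (F : Fin r → MvPolynomial (Fin (N + 1)) ℂ)
    (hF : ∀ k, (F k).IsHomogeneous (d k))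
    (hs : ∀ x ∈ Pub.cone F, LinearIndependent ℂ fun k j => eval x (pderiv j (F k)))
    (hc : ConnectedSpace (Pub.Var F)) (hd : ∀ k, d k = 3) (hN : N = 3) (hr : r = 1) :
    ∀ β, Pub.IsBM β → ∀ (e : ℤ) z, Pub.IsGW (Y := Pub.Var F) F (Pub.cone F)
      (Quot.mk _) 0 β 0 Fin.elim0 e z → z ≠ 0 → e = 1 := by
  revert hs hc
  refine Tf.transport (F := F) (P := fun act S => (∀ x ∈ S, LinearIndependent ℂ fun k j =>
    eval x (pderiv j (F k))) → ConnectedSpace (Pub.Quo act S) →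
      ∀ β : Pub.Bm (Pub.Quo act S), Pub.IsBM β → ∀ (e : ℤ) z, Pub.IsGW (Y := Pub.Quo act S) F S
        (Quot.mk _) 0 β 0 Fin.elim0 e z → z ≠ 0 → e = 1)
    fun hs (hc : ConnectedSpace (ci F).X) β hβ e z h hz => ?_
  obtain ⟨⟨x, hx⟩, -⟩ := Quot.exists_rep (Classical.arbitrary (ci F).X)
  have sm := Tf.smCI hF hs hx
  obtain ⟨β, rfl⟩ := Tf.isBM_iff.1 hβ
  rw [show (Fin.elim0 : Fin 0 → ℕ × Pub.Co (Pub.Quo (ci F).act (ci F).cone)) =
    fun i => ((0 : Fin 0 → ℕ) i, ((Fin.elim0 i : Zs (ci F).X)).1.1) from Subsingleton.elim _ _] at h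
  have a := (Tf.gwo_val (T := ci F) (a := fun i => Fin.elim0 i) (by
    filter_upwards [Tgt.valC sm.tg (ciF_big le_rfl) St.well St.pres 0 (fun _ => e) β 0
      fun i : Fin 0 => H.mk (Fin.elim0 i), eventually_ge_atTop 30] with k' b b'
    exact b.and (Tgt.cpc_chart sm.tg (ciF_big b') 0 _ β (by simp [Ch.Mk]) 0)) (fun _ => rfl) z).1
    ((Tf.isGW_iff F).1 h)
  rw [List.ofFn_zero] at a
  have b := cor_dim sm le_rfl (a ▸ hz)
  subst hN hr
  simp [Fam.vdim, ciF, ciK, Tgt.fam, hd] at b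
  omega

/-- **The 27 lines**, summed over all classes and degrees. -/
theorem cubic_sum (N r : ℕ) (d : Fin r → ℕ) (F : Fin r → MvPolynomial (Fin (N + 1)) ℂ)
    (hF : ∀ k, (F k).IsHomogeneous (d k))
    (hs : ∀ x ∈ Pub.cone F, LinearIndependent ℂ fun k j => eval x (pderiv j (F k)))
    (hc : ConnectedSpace (Pub.Var F)) (hd : ∀ k, d k = 3) (hN : N = 3) (hr : r = 1)
    (M : Pub.Bm (Pub.Var F) → ℤ → ℂ) (h : ∀ β e z, Pub.IsBM β → (Pub.IsGW (Y := Pub.Var F) F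
      (Pub.cone F) (Quot.mk _) 0 β 0 Fin.elim0 e z ↔ z = M β e))
    (h' : ∀ β e, M β e ≠ 0 → Pub.IsBM β) : ∑ᶠ β, ∑ᶠ e, M β e = 27 := by
  classical
  rw [← Tf.cubic N r d F hF hs hc hd hN hr (M · 1) fun β a => (h β 1 _ a).2 rfl]
  refine finsum_congr fun β => ?_
  rw [finsum_eq_single _ 1 fun e a => by_contra fun b => a (cubic_deg N r d F hF hs hc hd hN hr β
    (h' β e b) e _ ((h β e _ (h' β e b)).2 rfl) b)]
  by_cases a : Pub.IsBM β
  · exact (finsum_eq_if.trans (if_pos a)).symm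
  · exact (not_not.1 fun b => a (h' β 1 b)).trans (finsum_eq_if.trans (if_neg a)).symm

end Vale.Agent.P269L.J
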