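import Vale.Agent.P269L.J.Chk
import Vale.Agent.P269L.J.Cub

/-!
# The statement with the two checks, the second one summed over all classes
-/

noncomputable section

namespace Vale.Agent.P269L.J

open Set Function Topology Filter Classical P269 P269.Pub

variable {Y : Type} [TopologicalSpace Y]

/-- The Virasoro conjecture for the subvariety with the two checks. -/
def ConjD {J K : Type} [Fintype J] (F : K → MvPolynomial J ℂ) (d : K → ℕ) (n : ℕ) : Prop :=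
  let S := cone F
  let T := fun x : J → ℂ => {v | ∀ k, ∑ j, v j * MvPolynomial.eval x (MvPolynomial.pderiv j (F k)) = 0}
  let π : S → Var F := Quot.mk _
  let X : Bm (Var F) → Prop := Tx.IsFund scal S
  VirC (IsHodge S T π) X (IsCan scal S T (fun t => t ()) n) (I.IsGW scal S T π)
    (fun N _ => (n = 1 → (∀ k, d k = 1) → ∀ β, X β → ∀ m (a : Fin m → Co (Var F)),
        (∀ i, Zc (a i) ∧ IsDeg 2 (a i)) → N 0 β m (fun i => (0, a i)) = ∏ i, β (a i)) ∧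
      (n = 2 → Fintype.card J = 4 → (∀ k, d k = 3) → ∑ᶠ β, N 0 β 0 Fin.elim0 = 27)) n

theorem virD_of {Hdg : ℕ → ℕ → Co Y → Prop} {Fund : Bm Y → Prop} {Can : Co Y → Prop}
    {GW : ℤ → Bm Y → ∀ n, (Fin n → ℕ × Co Y) → ℤ → ℂ → Prop}
    {GW' : ℤ → Bm Y → ∀ n, ((Fin n → ℕ × Co Y) → ℂ) → Prop} {n : ℕ} {p q : Prop}
    (h : Virasoro Hdg Fund Can GW n) (hF : ∀ β, Fund β → IsBM β)
    (hp : p → ∀ β, Fund β → ∀ m (a : Fin m → Co Y), (∀ i, Zc (a i) ∧ IsDeg 2 (a i)) →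
      GW 0 β m (fun i => (0, a i)) 1 (∏ i, β (a i)))
    (hq : q → ∀ M : Bm Y → ℤ → ℂ, (∀ β e z, IsBM β → (GW 0 β 0 Fin.elim0 e z ↔ z = M β e)) →
      (∀ β e, M β e ≠ 0 → IsBM β) → ∑ᶠ β, ∑ᶠ e, M β e = 27)
    (H : ∀ g β n (N : (Fin n → ℕ × Co Y) → ℤ → ℂ), 0 ≤ g → IsBM β →
      (∀ l d z, (∀ i, Zc (l i).2) → (GW g β n l d z ↔ z = N l d)) →
      GW' g β n fun l => ∑ᶠ d, N l d) :
    VirC Hdg Fund Can GW' (fun N _ => (p → ∀ β, Fund β → ∀ m (a : Fin m → Co Y),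
        (∀ i, Zc (a i) ∧ IsDeg 2 (a i)) → N 0 β m (fun i => (0, a i)) = ∏ i, β (a i)) ∧
      (q → ∑ᶠ β, N 0 β 0 Fin.elim0 = 27)) n := by
  obtain ⟨N, s, h1, h2, h3, h4, h5⟩ := h
  have k : ∀ g β n l, ∑ᶠ d, N g β n l d ≠ 0 → ∃ d, N g β n l d ≠ 0 := fun g β n l e =>
    by_contra fun a => e (finsum_eq_zero_of_forall_eq_zero fun d => not_not.1 (not_exists.1 a d))
  have k1 : ∀ g β n l, β s = 1 → ∑ᶠ d, N g β n l d = N g β n l 1 := fun g β n l e =>
    finsum_eq_single _ _ fun d a => by_contra fun b => a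
      (Int.cast_injective (((h2 _ _ _ _ _ b).2.2.1.symm.trans e).trans Int.cast_one.symm))
  refine ⟨fun g β n l => ∑ᶠ d, N g β n l d, s, fun g β n hg hβ =>
    H g β n _ hg hβ fun l d z hl => h1 g β n l d z hg hβ hl, fun g β n l e => ?_,
    fun g n d => (h3 g n d).subset ?_, ⟨fun a β b m c e => ?_, fun a => ?_⟩, h4, h5⟩
  · obtain ⟨d, e⟩ := k _ _ _ _ e
    obtain ⟨a1, a2, a3, a4, a5⟩ := h2 _ _ _ _ _ e
    obtain ⟨d, rfl⟩ := Int.eq_ofNat_of_zero_le a4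
    exact ⟨a1, a2, d, a3.trans (Int.cast_natCast d), a5⟩
  · rintro β ⟨a, l, e⟩
    obtain ⟨d', e⟩ := k _ _ _ _ e
    obtain rfl : d' = d :=
      Int.cast_injective (((h2 _ _ _ _ _ e).2.2.1.symm.trans a).trans (Int.cast_natCast d).symm)
    exact ⟨l, e⟩
  · have e0 := (h1 _ _ _ _ _ _ le_rfl (hF β b) fun i => i.elim0).1
      (hp a β b 0 Fin.elim0 fun i => i.elim0)
    rw [Fintype.prod_empty] at e0
    exact (k1 _ _ _ _ ((h2 _ _ _ _ _ (e0 ▸ one_ne_zero)).2.2.1.trans Int.cast_one)).trans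
      ((h1 _ _ _ _ _ _ le_rfl (hF β b) fun i => (e i).1).1 (hp a β b m c e)).symm
  · exact hq a (fun β e => N 0 β 0 Fin.elim0 e)
      (fun β e z b => h1 _ _ _ _ _ _ le_rfl b fun i => i.elim0) fun β e b => (h2 _ _ _ _ _ b).2.1

theorem conjD_of (N r : ℕ) (d : Fin r → ℕ) (F : Fin r → MvPolynomial (Fin (N + 1)) ℂ)
    (hF : ∀ k, (F k).IsHomogeneous (d k))
    (hs : ∀ x ∈ cone F, LinearIndependent ℂ fun k j =>
      MvPolynomial.eval x (MvPolynomial.pderiv j (F k)))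
    (hc : ConnectedSpace (Var F)) (H : HasPres F) : ConjD F d (N - r) := by
  have e : Tx.IsFund scal (cone F) = Pub.IsFund scal (cone F) :=
    funext fun b => propext (U.isFund_iff (Fr.fp_cone hF) b)
  have h := P269.Pc.fin N r d F hF hs hc
  unfold P269.Pc.c102 at h
  rw [P269.Pc.eVirasoro, P269.Pc.eIsHodge, P269.Pc.eIsFund, P269.Pc.eIsCan, P269.Pc.eIsGW] at h
  have := virD_of (p := N - r = 1 ∧ ∀ k, d k = 1)
    (q := N - r = 2 ∧ Fintype.card (Fin (N + 1)) = 4 ∧ ∀ k, d k = 3) h.1 (fun _ a => a.1)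
    (fun a => h.2.1 a.1 a.2) (fun ⟨a, b, c⟩ => by
      rw [Fintype.card_fin] at b
      exact cubic_sum N r d F hF hs hc c (by omega) (by omega)) H
  unfold ConjD
  simp only [e, and_imp] at this ⊢
  exact this

end Vale.Agent.P269L.J
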