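import Vale.Agent.P269L.J.Chk2
import Vale.Agent.P269.San3.Fin

/-!
# The statement with the three checks
-/

noncomputable section

namespace Vale.Agent.P269L.J

open Set Function Topology Filter Classical P269 P269.Pub

variable {Y : Type} [TopologicalSpace Y]

/-- The Virasoro conjecture for the subvariety with the three checks. -/
def ConjE {J K : Type} [Fintype J] (F : K → MvPolynomial J ℂ) (d : K → ℕ) (n : ℕ) : Prop :=
  let S := cone F
  let T := fun x : J → ℂ => {v | ∀ k, ∑ j, v j * MvPolynomial.eval x (MvPolynomial.pderiv j (F k)) = 0}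
  let π : S → Var F := Quot.mk _
  let X : Bm (Var F) → Prop := Tx.IsFund scal S
  VirC (IsHodge S T π) X (IsCan scal S T (fun t => t ()) n) (I.IsGW scal S T π)
    (fun N _ => (n = 1 → (∀ k, d k = 1) → ∀ β, X β → ∀ m (a : Fin m → Co (Var F)),
        (∀ i, Zc (a i) ∧ IsDeg 2 (a i)) → N 0 β m (fun i => (0, a i)) = ∏ i, β (a i)) ∧
      (n = 2 → Fintype.card J = 4 → (∀ k, d k = 3) → ∑ᶠ β, N 0 β 0 Fin.elim0 = 27) ∧
      (n = 1 → Fintype.card J = 3 → (∀ k, d k = 3) → ∀ β, X β → N 1 β 0 Fin.elim0 = 1)) n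

theorem virE_of {Hdg : ℕ → ℕ → Co Y → Prop} {Fund : Bm Y → Prop} {Can : Co Y → Prop}
    {GW : ℤ → Bm Y → ∀ n, (Fin n → ℕ × Co Y) → ℤ → ℂ → Prop}
    {GW' : ℤ → Bm Y → ∀ n, ((Fin n → ℕ × Co Y) → ℂ) → Prop} {n : ℕ}
    {Chk : (ℤ → Bm Y → ∀ n, (Fin n → ℕ × Co Y) → ℂ) → Prop}
    (h : Virasoro Hdg Fund Can GW n)
    (hc : ∀ M : ℤ → Bm Y → ∀ n, (Fin n → ℕ × Co Y) → ℤ → ℂ,
      (∀ g β n l e z, 0 ≤ g → IsBM β → (∀ i, Zc (l i).2) → (GW g β n l e z ↔ z = M g β n l e)) →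
      (∀ g β n l e, M g β n l e ≠ 0 → IsBM β) →
      (∀ g β n l e g' n' l', M g β n l e ≠ 0 → ∑ᶠ d, M g' β n' l' d = M g' β n' l' e) →
      Chk fun g β n l => ∑ᶠ d, M g β n l d)
    (H : ∀ g β n (N : (Fin n → ℕ × Co Y) → ℤ → ℂ), 0 ≤ g → IsBM β →
      (∀ l d z, (∀ i, Zc (l i).2) → (GW g β n l d z ↔ z = N l d)) →
      GW' g β n fun l => ∑ᶠ d, N l d) :
    VirC Hdg Fund Can GW' (fun N _ => Chk N) n := by
  obtain ⟨N, s, h1, h2, h3, h4, h5⟩ := h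
  have k : ∀ g β n l, ∑ᶠ d, N g β n l d ≠ 0 → ∃ d, N g β n l d ≠ 0 := fun g β n l e =>
    by_contra fun a => e (finsum_eq_zero_of_forall_eq_zero fun d => not_not.1 (not_exists.1 a d))
  refine ⟨fun g β n l => ∑ᶠ d, N g β n l d, s, fun g β n hg hβ =>
    H g β n _ hg hβ fun l d z hl => h1 g β n l d z hg hβ hl, fun g β n l e => ?_,
    fun g n d => (h3 g n d).subset ?_, hc N h1 (fun _ _ _ _ _ b => (h2 _ _ _ _ _ b).2.1)
      fun g β n l e g' n' l' c => finsum_eq_single _ _ fun d a => by_contra fun b => a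
        (Int.cast_injective ((h2 _ _ _ _ _ b).2.2.1.symm.trans (h2 _ _ _ _ _ c).2.2.1)), h4, h5⟩
  · obtain ⟨d, e⟩ := k _ _ _ _ e
    obtain ⟨a1, a2, a3, a4, a5⟩ := h2 _ _ _ _ _ e
    obtain ⟨d, rfl⟩ := Int.eq_ofNat_of_zero_le a4
    exact ⟨a1, a2, d, a3.trans (Int.cast_natCast d), a5⟩
  · rintro β ⟨a, l, e⟩
    obtain ⟨d', e⟩ := k _ _ _ _ e
    obtain rfl : d' = d :=
      Int.cast_injective (((h2 _ _ _ _ _ e).2.2.1.symm.trans a).trans (Int.cast_natCast d).symm)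
    exact ⟨l, e⟩

theorem conjE_of (N r : ℕ) (d : Fin r → ℕ) (F : Fin r → MvPolynomial (Fin (N + 1)) ℂ)
    (hF : ∀ k, (F k).IsHomogeneous (d k))
    (hs : ∀ x ∈ cone F, LinearIndependent ℂ fun k j =>
      MvPolynomial.eval x (MvPolynomial.pderiv j (F k)))
    (hc : ConnectedSpace (Var F)) (H : HasPres F) : ConjE F d (N - r) := by
  have e : Tx.IsFund scal (cone F) = Pub.IsFund scal (cone F) :=
    funext fun b => propext (U.isFund_iff (Fr.fp_cone hF) b)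
  have h := P269.Pc.fin N r d F hF hs hc
  unfold P269.Pc.c102 at h
  rw [P269.Pc.eVirasoro, P269.Pc.eIsHodge, P269.Pc.eIsFund, P269.Pc.eIsCan, P269.Pc.eIsGW] at h
  unfold ConjE
  simp only [e]
  refine virE_of h.1 (fun M h1 h2 h3 => ⟨fun a a' β b m c f => ?_, fun a b c => ?_,
    fun a b c β hβ => ?_⟩) H
  · have e0 := (h1 _ _ _ _ _ _ le_rfl b.1 fun i => i.elim0).1
      (h.2.1 a a' β b 0 Fin.elim0 fun i => i.elim0)
    rw [Fintype.prod_empty] at e0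
    exact (h3 _ _ _ _ _ _ _ _ (e0 ▸ one_ne_zero)).trans
      ((h1 _ _ _ _ _ _ le_rfl b.1 fun i => (f i).1).1 (h.2.1 a a' β b m c f)).symm
  · rw [Fintype.card_fin] at b
    exact cubic_sum N r d F hF hs hc c (by omega) (by omega) (fun β e => M 0 β 0 Fin.elim0 e)
      (fun β e z b => h1 _ _ _ _ _ _ le_rfl b fun i => i.elim0) fun β e b => h2 _ _ _ _ _ b
  · rw [Fintype.card_fin] at b
    have e0 := (h1 _ _ _ _ _ _ zero_le_one hβ.1 fun i => i.elim0).1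
      (Tf.ell N r d F hF hs hc c (by omega) (by omega) β hβ)
    exact (h3 _ _ _ _ _ _ _ _ (e0 ▸ one_ne_zero)).trans e0.symm

end Vale.Agent.P269L.J
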