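import Vale.Agent.P269L.J.Pres
import Vale.Agent.P269L.I.LEqv
import Vale.Agent.P269L.I.LFam
import Vale.Agent.P269L.I.LSol
import Vale.Agent.P269L.I.LNm
import Vale.Agent.P269L.I.LOnto
import Vale.Agent.P269L.I.LKer
import Vale.Agent.P269L.I.LIsoG
import Vale.Agent.P269L.I.LOcc
import Vale.Agent.P269L.I.LCls
import Vale.Agent.P269L.I.LVir

/-!
# All leaves hold
-/

namespace Vale.Agent.P269L.J

open I

theorem lv : Lv :=
  ⟨lEqv, lEmb, lFam, lSol, lNm, lOnto lKer, lKer, lIsoG, lStb, lOcc, lCls, lCls', lVir⟩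

end Vale.Agent.P269L.J
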