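import Vale.Agent.P269.Pub.T6
import Vale.Agent.P269.Map.Well

/-!
# Every chart with large parameters computes all invariants
-/

set_option linter.unusedSectionVars false

namespace Vale.Agent.P269L.J

open P291Z Set Function Topology Filter MvPolynomial P269 P269.Mono P269.Br P269.Tf

variable {R J K : Type} [Fintype R] [Fintype J] [Fintype K] [DecidableEq R] {T : Tgt R J K}
  {χ : K → R → ℤ} {k D : ℕ}

theorem clopen_exK {F : Fam Empty Empty R J K} (h : F.Tg) {ν κ : Type} [Fintype ν] [Fintype κ]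
    (a : F.BigD k D) (g : ℤ) (d : R → ℤ) (u : ν → J → ℕ) (β : BM (F.X F.cone)) :
    IsClopen (F.sel ((F.exK F.cone β).P ν κ) : Set (F.Mod κ k D g d u)) := by
  have b : IsClopen (F.sel (fun m : AM Empty R J ν κ => m.Conn) : Set (F.Mod κ k D g d u)) :=
    Ch.isClopen_selQ (Fam.chart_lat a) inter_subset_left (fun _ _ e => e.conn) fun _ b _ c => by
      filter_upwards [eventually_mem_nhdsWithin, nhdsWithin_le_nhds
        (c.eventually_same (A' := univ) (Fam.chart_cuts a) b.1.1.2.1)] with x e f m r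
      exact ⟨(f e.1.1.2.1 m r).conn, (f e.1.1.2.1 m r).symm.conn⟩
  have c := b.inter (h.clopen_cls (ν := ν) (κ := κ) a g d u β)
  rwa [← Fam.sel_and a (fun _ _ e => e.conn) (h.ivt_cls β)] at c

theorem valC_big (h : (T.fam χ).Tg) (hk : (T.fam χ).Big k) (hD : (T.fam χ).BigD k D) (g : ℤ)
    (d : R → ℤ) (β : BM T.X) {a n : ℕ} (hn : Fintype.card (Ch.Mk (Fin a ⊕ Fin 0) (Fin 0)) = n)
    (m : Fin a → ℕ) (c : Fin a → H T.X) : (T.chart g n d k D).ValC T β m c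
      ((T.fam χ).cor k ((T.fam χ).exK _ (T.xiB χ β)) 0 _ (T.fam χ).cone d (g - 1)
        (.ofFn fun i => (m i, T.xiH χ (c i))) [] []) ∧ (T.chart g n d k D).Cpc T β m := by
  subst hn
  rw [Fam.cor_fs0, sub_add_cancel]
  obtain ⟨K₀, b, -, -, h1⟩ := h.nice.vd' (ν := Fin a ⊕ Fin 0) (Fin 0) hk
  obtain ⟨U, N, c1, c2⟩ := h1 D hD g d 0
  have c3 := clopen_exK (κ := Fin 0) h hD g d (fun n => (0 : Fin a ⊕ Fin 0 → ℕ) n • 0) (T.xiB χ β)
  have := Cpt.compactSpace_mod (ν := Fin a ⊕ Fin 0) (κ := Fin 0) (g := g) (d := d) h.toGood hk hD rfl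
    (T := univ) (by rw [← h.B, h.B_eq]; exact isCompact_singleton) h.B.ge
    (fun _ _ => ⟨1, isUnit_one, trivial⟩) fun n => (0 : Fin a ⊕ Fin 0 → ℕ) n • 0
  rw [h.nice.inv_eq (fs := (T.fam χ).fs0 _ fun i => (m i, T.xiH χ (c i))) (Fam.cp_empty _) hk hD
    ((h.exOk_exK (k := k) (T.xiB χ β)).sel _ (Fin 0) g d
      fun n => (0 : Fin a ⊕ Fin 0 → ℕ) n • 0).1 c3 (Fam.ok_fs1 _ subset_rfl _ _) isEmptyElim hD]
  exact ⟨Ch.valC h.toGood c1.lat c1.fits (c2.oz c1.toStd) β c3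
    ⟨_, (c2.isVirF_iff c1.toStd).2 rfl, fun _ => (c2.isVirF_iff c1.toStd).1⟩ m c,
    Ch.cpc h.toGood c1.lat (c2.oz c1.toStd) β c3 m⟩

/-- The integral in one chart. -/
def CI {ι : Type} [Fintype ι] [DecidableEq ι] (ch : Ch ι J) (T : Tgt R J K) {n : ℕ} (β : BM T.X)
    (u : Fin n → ℕ) (c : Fin n → Coch T.X) (z : ℂ) : Prop :=
  ∃ v e s, ch.IsVir (Fin n) T (fun q o => (T.F q).totalDegree * ∑ j, ch.b j o) v ∧
    (∀ i, ch.IsTan T i (e i)) ∧ s = ch.igd T β u e c ∧ CompactSpace (ch.Mod (Fin n) T) ∧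
    s ∈ Zc _ ∧ z = ev v s

theorem ci_val {ι : Type} [Fintype ι] [DecidableEq ι] {ch : Ch ι J} {n : ℕ} {β : BM T.X}
    {m : Fin n → ℕ} {a : Fin n → Zs T.X} {z₀ : ℂ}
    (h : ch.ValC T β m (fun i => H.mk (a i)) z₀ ∧ ch.Cpc T β m) (z : ℂ) :
    CI ch T β m (fun i => (a i).1) z ↔ z = z₀ := by
  obtain ⟨⟨⟨v, h1⟩, h2, h3⟩, h4, h5⟩ := h
  choose e he using h2
  refine ⟨?_, fun k => ⟨v, e, _, h1, he, rfl, h4, Zc_of_compact (h5 e a he),
    k.trans (h3 v e a h1 he fun _ => rfl).symm⟩⟩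
  rintro ⟨v, e, _, k1, k2, rfl, -, -, k3⟩
  exact k3.trans (h3 v e a k1 k2 fun _ => rfl)

/-- **One chart computes all invariants.** -/
theorem ci_iff (hP : St.Pres) (h : (T.fam χ).Tg) (hk : (T.fam χ).Big k) (hD : (T.fam χ).BigD k D)
    (g : ℤ) (d : R → ℤ) (β : BM T.X) {n : ℕ} (m : Fin n → ℕ) (a : Fin n → Zs T.X) (z : ℂ) :
    CI (T.chart g n d k D) T β m (fun i => (a i).1) z ↔ GWo T g β n m (fun i => (a i).1) d z := by
  have e : Fintype.card (Ch.Mk (Fin n ⊕ Fin 0) (Fin 0)) = n := by simp [Ch.Mk]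
  refine (ci_val (valC_big h hk hD g d β e m _) z).trans (ev2_iff (P := fun k D z =>
    CI (T.chart g n d k D) T β m (fun i => (a i).1) z) ?_ z).symm
  refine (eventually_ge_atTop k).mono fun k' b => ((T.fam χ).eventually_bigD k').mono fun D' c => ?_
  rw [← h.cor_k hP hk (hk.mono b)]
  exact ci_val (valC_big h (hk.mono b) c g d β e m _)

end Vale.Agent.P269L.J
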