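import Vale.Agent.P269L.I.St
import Vale.Agent.P269L.J.Val

/-!
# From the invariants in each degree to the invariants of a class
-/

set_option linter.unusedSectionVars false

namespace Vale.Agent.P269L.J

open P291Z Set Function Topology Filter MvPolynomial P269 P269.Mono P269.Br P269.Tf

theorem vir_of {Y : Type} [TopologicalSpace Y] {Hdg : ℕ → ℕ → Pub.Co Y → Prop}
    {Fund : Pub.Bm Y → Prop} {Can : Pub.Co Y → Prop}
    {GW : ℤ → Pub.Bm Y → ∀ n, (Fin n → ℕ × Pub.Co Y) → ℤ → ℂ → Prop}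
    {GW' : ℤ → Pub.Bm Y → ∀ n, ((Fin n → ℕ × Pub.Co Y) → ℂ) → Prop} {n : ℕ}
    (h : Pub.Virasoro Hdg Fund Can GW n)
    (H : ∀ g β n (N : (Fin n → ℕ × Pub.Co Y) → ℤ → ℂ), 0 ≤ g → Pub.IsBM β →
      (∀ l d z, (∀ i, Pub.Zc (l i).2) → (GW g β n l d z ↔ z = N l d)) →
      GW' g β n fun l => ∑ᶠ d, N l d) : I.Virasoro Hdg Fund Can GW' n := by
  obtain ⟨N, s, h1, h2, h3, h4, h5⟩ := h
  have k : ∀ g β n l, ∑ᶠ d, N g β n l d ≠ 0 → ∃ d, N g β n l d ≠ 0 := fun g β n l e =>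
    by_contra fun a => e (finsum_eq_zero_of_forall_eq_zero fun d => not_not.1 (not_exists.1 a d))
  refine ⟨fun g β n l => ∑ᶠ d, N g β n l d, s, fun g β n hg hβ =>
    H g β n _ hg hβ fun l d z hl => h1 g β n l d z hg hβ hl, fun g β n l e => ?_,
    fun g n d => (h3 g n d).subset ?_, h4, h5⟩
  · obtain ⟨d, e⟩ := k _ _ _ _ e
    obtain ⟨a1, a2, a3, a4, a5⟩ := h2 _ _ _ _ _ e
    obtain ⟨d, rfl⟩ := Int.eq_ofNat_of_zero_le a4
    exact ⟨a1, a2, d, a3.trans (Int.cast_natCast d), a5⟩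
  · rintro β ⟨a, l, e⟩
    obtain ⟨d', e⟩ := k _ _ _ _ e
    obtain rfl : d' = d :=
      Int.cast_injective (((h2 _ _ _ _ _ e).2.2.1.symm.trans a).trans (Int.cast_natCast d).symm)
    exact ⟨l, e⟩

variable {J K : Type} [Fintype J] [Fintype K] {T : Tgt Unit J K} {χ : K → Unit → ℤ} {k N : ℕ}

variable (T χ) in
/-- The degree of a class. -/
noncomputable def deg (β : BM T.X) : ℂ := ev (T.xiB χ β) (rep ((T.fam χ).lc (T.fam χ).cone 0 1))

/-- A non-zero invariant forces the degree of the class. -/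
theorem gwo_supp (hP : St.Pres) (h : (T.fam χ).Tg) (hk : (T.fam χ).Big k)
    (hA : (T.fam χ).Ample 1 N) {g d : ℤ} {β : BM T.X} {n : ℕ} {m : Fin n → ℕ}
    {a : Fin n → Zs T.X} {z : ℂ} (e : GWo T g β n m (fun i => (a i).1) (fun _ => d) z)
    (hz : z ≠ 0) : deg T χ β = d ∧ 0 ≤ d ∧ 0 < 2 * g - 2 + n + 3 * d := by
  have := h.compact
  obtain ⟨D, hD⟩ := ((T.fam χ).eventually_bigD k).exists
  rw [← ci_iff hP h hk hD, ci_val (valC_big h hk hD g _ β (by simp [Ch.Mk]) m _)] at e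
  obtain ⟨y, a1, a2, a3, a4, a5⟩ := Fam.cor_exK_supp h.nice St.supp hk (e ▸ hz)
  have := a4.1
  have b2 := a2.pos a3
  simp [hA.1, Ch.Mk] at b2
  refine ⟨?_, by simpa using (a1.eff hA a3).1, by linarith⟩
  exact (congrArg (ev · _) a5.symm).trans ((AM.ev_cls_lc h.toGood a1 1).trans (by simp [a3.2]))

/-- The degree in which the invariants of the class `β` are computed. -/
theorem exists_deg (c : ℂ) {g : ℤ} (hg : 0 ≤ g) (n : ℕ) : ∃ d : ℤ, 0 ≤ d ∧ 0 < 2 * g - 2 + n + 3 * d ∧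
    ∀ d' : ℤ, c = d' → 0 ≤ d' → 0 < 2 * g - 2 + n + 3 * d' → d' = d := by
  by_cases h : ∃ d : ℤ, c = d ∧ 0 ≤ d ∧ 0 < 2 * g - 2 + n + 3 * d
  · obtain ⟨d, h1, h2, h3⟩ := h
    exact ⟨d, h2, h3, fun d' e _ _ => Int.cast_injective (e.symm.trans h1)⟩
  · exact ⟨1, zero_le_one, by omega, fun d' a b c => (h ⟨d', a, b, c⟩).elim⟩

/-- In the chart of that degree the integrals are the sums over all degrees. -/
theorem ci_sum (hP : St.Pres) (h : (T.fam χ).Tg) (hk : (T.fam χ).Big k) {D : ℕ}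
    (hD : (T.fam χ).BigD k D) (hA : (T.fam χ).Ample 1 N) {g d : ℤ} {β : BM T.X} {n : ℕ}
    (hd : ∀ d' : ℤ, deg T χ β = d' → 0 ≤ d' → 0 < 2 * g - 2 + n + 3 * d' → d' = d)
    {m : Fin n → ℕ} {a : Fin n → Zs T.X} {V : ℤ → ℂ}
    (hV : ∀ d z, GWo T g β n m (fun i => (a i).1) (fun _ => d) z ↔ z = V d) (z : ℂ) :
    CI (T.chart g n (fun _ => d) k D) T β m (fun i => (a i).1) z ↔ z = ∑ᶠ d, V d := by
  rw [ci_iff hP h hk hD, hV, finsum_eq_single V d fun d' e => by_contra fun b =>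
    let ⟨c1, c2, c3⟩ := gwo_supp hP h hk hA ((hV d' _).2 rfl) b
    e (hd d' c1 c2 c3)]

end Vale.Agent.P269L.J
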