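import Vale.Agent.P269L.I.Dat
import Vale.Agent.P269L.J.Top
import Vale.Agent.P269.Asm.Ci

/-!
# Good charts exist, and the degree is a function of the class
-/

set_option linter.unusedSectionVars false

namespace Vale.Agent.P269L.J

open P291Z Set Function Topology Filter MvPolynomial P269 P269.Mono P269.Br P269.Tf P269.Ch

section

variable {R J K : Type} [Fintype R] [Fintype J] [Fintype K] [DecidableEq R] {T : Tgt R J K}
  {χ : K → R → ℤ} {k D : ℕ}

theorem tdeg_eq (ch : Ch (Option R) J) :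
    (fun q o => (T.F q).totalDegree * ∑ j, ch.b j o) = (T.fam χ).tdeg ch :=
  funext₂ fun _ _ => congrArg (Finset.sup · _ * _) (support_map_of_injective _ (C_injective _ _)).symm

theorem isKur_big (h : (T.fam χ).Tg) (hk : (T.fam χ).Big k) (hD : (T.fam χ).BigD k D) (g : ℤ)
    (d : R → ℤ) (n : ℕ) : P269L.T.IsKur (T.chart g n d k D) (Fin n) T
      fun q o => (T.F q).totalDegree * ∑ j, (T.chart g n d k D).b j o := by
  have H : ∀ m, Fintype.card (Ch.Mk (Fin n ⊕ Fin 0) (Fin 0)) = m →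
      P269L.T.IsKur (T.chart g m d k D) (Fin n) T ((T.fam χ).tdeg (T.chart g m d k D)) := by
    rintro _ rfl
    obtain ⟨K₀, b, -, -, h1⟩ := h.nice.vd' (ν := Fin n ⊕ Fin 0) (Fin 0) hk
    obtain ⟨U, N, c1, c2⟩ := h1 D hD g d 0
    have := Cpt.compactSpace_mod (ν := Fin n ⊕ Fin 0) (κ := Fin 0) (g := g) (d := d) h.toGood hk hD
      rfl (T := univ) (by rw [← h.B, h.B_eq]; exact isCompact_singleton) h.B.ge
      (fun _ _ => ⟨1, isUnit_one, trivial⟩) fun n => (0 : Fin _ ⊕ Fin 0 → ℕ) n • 0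
    exact @P269L.T.isKur _ _ _ _ _ _ _ _ _ _ _ _ _ _ _ _ _ _ _ _ _ _ _ _ _ _ c1.toStd c2 this
  rw [tdeg_eq (χ := χ)]
  exact H n (by simp [Ch.Mk])

theorem chart_fam (g : ℤ) (n : ℕ) (d : R → ℤ) :
    (T.fam χ).chart g n d k D = T.chart g n d k D := rfl

theorem ev_of_class {ι : Type} [Fintype ι] [DecidableEq ι] {ch : Ch ι J} {ℓ : R → ι → ℤ} {n : ℕ}
    (h : (T.fam χ).Tg) (hl : ch.Lat (T.fam χ).toWt ℓ) (x : ch.sol (Fin n) T) {β : BM T.X}
    (hx : HasClass x β) (w : R → ℤ) : ev (T.xiB χ β) (rep ((T.fam χ).lc (T.fam χ).cone 0 w)) =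
      (∑ r, w r * ∑ i, ℓ r i * ch.m i : ℤ) := by
  have := h.compact
  have h0 := ((trW_sol (ν₀ := Empty) (κ := Empty) (χ := χ) (u := 0)).1 x.2).1
  obtain ⟨m, hm⟩ := hl.exists_rep_sol h0
  rw [← (hasClass_iff h.toGood hl.wd x hm β).1 hx,
    AM.ev_cls_lc h.toGood ((hm.mem_solF h0.1.2.1 h.toInv hl.wd).1 h0)]
  simp only [(hm.typ h0.1.2.1).2]

theorem lat_big (hD : (T.fam χ).BigD k D) (g : ℤ) (n : ℕ) (d : R → ℤ) :
    (T.chart g n d k D).Lat (T.fam χ).toWt ℓs := chart_fam (T := T) (χ := χ) (k := k) (D := D) g n d ▸ Fam.chart_lat hD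

theorem std_big (h : (T.fam χ).Tg) (hD : (T.fam χ).BigD k D) (g : ℤ) (n : ℕ) (d : R → ℤ) :
    (T.chart g n d k D).Std (T.fam χ)
      (fun q o => (T.F q).totalDegree * ∑ j, (T.chart g n d k D).b j o) univ ℓs := by
  rw [tdeg_eq (χ := χ)]
  exact chart_fam (T := T) (χ := χ) (k := k) (D := D) g n d ▸ Fam.chart_std h.toGood h.reg hD

theorem num_big (hk : (T.fam χ).Big k) (hD : (T.fam χ).BigD k D) (g : ℤ) (n : ℕ) (d : R → ℤ) :
    (T.chart g n d k D).Num₀ := chart_fam (T := T) (χ := χ) (k := k) (D := D) g n d ▸ Fam.num₀ hk.two_le hD g n d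

theorem chart_deg (g : ℤ) (n : ℕ) (d : R → ℤ) (r : R) :
    ∑ i, ℓs r i * (T.chart g n d k D).m i = d r := by
  simp [Tgt.chart, mul_add, Finset.sum_add_distrib, ← Finset.sum_mul, ℓs]
  simp [Tgt.hat, Pi.single_apply]

end

theorem deg_of_class {J K : Type} [Fintype J] [Fintype K] {T : Tgt Unit J K} {χ : K → Unit → ℤ}
    {k D n : ℕ} {g d : ℤ} (h : (T.fam χ).Tg) (hD : (T.fam χ).BigD k D)
    (x : (T.chart g n (fun _ => d) k D).sol (Fin n) T) {β : BM T.X} (hx : HasClass x β) :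
    deg T χ β = d :=
  (ev_of_class h (lat_big hD g n _) x hx 1).trans (by simp only [chart_deg]; simp)

theorem hyp_big {N c : ℕ} {F : Fin c → MvPolynomial (Fin (N + 1)) ℂ} {dg : Fin c → ℕ} {g d : ℤ}
    (n : ℕ) {k D : ℕ} (h : SmCI F dg) (h0 : (ci F).cone.Nonempty) (hg : 0 ≤ g) (hd : 0 ≤ d)
    (hp : 0 < 2 * g - 2 + n + 3 * d) (hk : (ciF F dg).Big k) (hD : (ciF F dg).BigD k D) :
    ∃ r jj ρ', @I.Hyp N c F g d n k D r jj ρ' dg := by
  have ht : ((ci F).fam fun k _ => dg k).Tg := h.tg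
  have hk' : ((ci F).fam fun k _ => dg k).Big k := hk
  have hD' : ((ci F).fam fun k _ => dg k).BigD k D := hD
  have a := isKur_big ht hk' hD' g (fun _ => d) n
  obtain ⟨O, v, r, m, b⟩ := id a
  obtain ⟨r, jj, ρ', e⟩ := G.exists_crd b
  exact ⟨r, jj, ρ', h, h0, hk, hD, hg, hd, hp, e, a, num_big hk' hD' g n _,
    ⟨univ, std_big ht hD' g n _⟩, lat_big hD' g n _⟩

theorem lHyp : I.LHyp := fun _ _ F dg _ _ n h h0 hg hd hp =>
  (eventually_ge_atTop 30).mono fun k a => ((ciF F dg).eventually_bigD k).mono fun _ b =>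
    hyp_big n h h0 hg hd hp (ciF_big a) b

end Vale.Agent.P269L.J
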