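import Vale.Agent.P269L.I.Tan
import Vale.Agent.P269L.I.Shr
import Vale.Agent.P269.Br.GWb

/-!
# The integrals of the text in the chart
-/

set_option linter.unusedSectionVars false

namespace Vale.Agent.P269L.J

open Set Function Topology Filter P291Z P269 P269.Ch P269.Tf

theorem intg_gen {A W P E Y : Type} [NormedRing A] [NormedAlgebra ℂ A] [NormedAddCommGroup W]
    [NormedSpace ℂ W] [NormedAddCommGroup E] [NormedSpace ℂ E] [NormedAddCommGroup P]
    [NormedSpace ℂ P] [TopologicalSpace Y] {n : ℕ} {act : A → W → W} {ρ : A → P → P}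
    {S sol' sol : Set W} {van obs : W → Set P} {σ : W → P} {q : W → Prop}
    {val : Fin n → W → Y → Prop} {ρ' : Fin n → A → E → E} {T D : Fin n → W → Set E}
    (hs : sol' = sol) {Vir : BM (Quo act sol) → Prop}
    (hV : ∀ b, Tx.VirE act ρ S sol univ van obs σ id ρ b ↔ ∃ w, Vir w ∧ Tf.fn w = b)
    {Q : Quo act sol → Prop} (hq : ∀ y, q (Quo.out y).1 ↔ Q y) {u : Fin n → Quo act sol → Y}
    (hu : ∀ i y z, val i (Quo.out y).1 z ↔ z = u i y) {Eu : Fin n → Coch (Quo act sol) → Prop}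
    (he : ∀ i e, Pub.IsEuler act (ρ' i) sol (T i) (D i) e ↔ ∃ e', Eu i e' ∧ e'.1 = e)
    {m : Fin n → ℕ} {a : Fin n → Coch Y} {z : ℂ} :
    I.Intg act ρ S sol' van obs σ q val ρ' T D (fun i => (m i, (a i).1)) z ↔
      ∃ v, ∃ e : Fin n → Coch (Quo act sol), ∃ s, Vir v ∧ (∀ i, Eu i (e i)) ∧
        s = ind {y | Q y} * (List.ofFn fun i => (-e i) ^ m i * pull (u i) (a i)).prod ∧
        CompactSpace (Quo act sol) ∧ s ∈ Zc _ ∧ z = ev v s := by
  subst hs
  have key : ∀ e : Fin n → Coch (Quo act sol'),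
      Pub.cup (Pub.ind fun y => q (Pub.pick act sol' y))
        (Pub.prd (List.ofFn fun i => Pub.cup (Pub.prd (List.replicate (m i) fun u => -(e i).1 u))
          (Pub.pull (u i) (a i).1))) =
      (ind {y | Q y} * (List.ofFn fun i => (-e i) ^ m i * pull (u i) (a i)).prod).1 := fun e => by
    rw [val_mul, val_ofFn, val_ind]
    simp only [val_mul, val_pow]
    exact congrArg (fun q => Pub.cup (Pub.ind q) _) (funext fun y => propext (hq y))
  constructor
  · rintro ⟨v, ev, e, h1, h2, h3, h4, h5, rfl⟩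
    obtain ⟨v, k1, rfl⟩ := (hV _).1 h1
    choose e k3 k4 using fun i => (he i _).1 (h3 i)
    obtain rfl := funext k4
    obtain rfl : ev = u := funext₂ fun i y => (hu i y _).1 (h2 i y)
    exact ⟨v, e, _, k1, k3, rfl, h4, zc_val.1 ((congrArg Pub.Zc (key e)).mp h5),
      (congrArg (Tf.fn v) (key e)).trans (fn_val v _)⟩
  · rintro ⟨v, e, _, h1, h2, rfl, h3, h4, rfl⟩
    exact ⟨Tf.fn v, u, fun i => (e i).1, (hV _).2 ⟨v, h1, rfl⟩, fun i y => (hu i y _).2 rfl,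
      fun i => (he i _).2 ⟨e i, h2 i, rfl⟩, h3, (congrArg Pub.Zc (key e)).mpr (zc_val.2 h4),
      ((congrArg (Tf.fn v) (key e)).trans (fn_val v _)).symm⟩

theorem span_dir {ι : Type} [Fintype ι] [DecidableEq ι] {M : ι → ℕ} (p : V M) :
    Submodule.span ℂ (I.dir I.tor p) =
      Submodule.span ℂ (range fun i => (Pi.single i (p i) : V M)) := by
  refine le_antisymm (Submodule.span_le.2 ?_) (Submodule.span_mono ?_)
  · rintro _ ⟨t, rfl⟩
    rw [show (fun t => I.tor t p) t = ∑ i, t i • (Pi.single i (p i) : V M) from by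
      simp only [← Pi.single_smul, Finset.univ_sum_single]
      rfl]
    exact sum_mem fun i _ => Submodule.smul_mem _ _ (Submodule.subset_span ⟨i, rfl⟩)
  · rintro _ ⟨i, rfl⟩
    refine ⟨Pi.single i 1, funext fun j => ?_⟩
    by_cases e : j = i
    · subst e
      simp
    · simp [e]

theorem euler_iff {ι R J K ν : Type} [Fintype ι] [DecidableEq ι] [Fintype R] [Fintype J] [Fintype K]
    [Fintype ν] {ch : Ch ι J} {T : Tgt R J K} (i : ν) (e : Pub.Co (Quo act (ch.sol ν T))) :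
    Pub.IsEuler act (fun (s : ch.A ν) (c : V ch.M) => s.2.2 i • fun j => s.1 j (c j)) (ch.sol ν T)
      (fun x => I.Tan (crv x) (x.p i)) (fun x => I.dir I.tor (x.p i)) e ↔
      ∃ e', ch.IsTan T i e' ∧ e'.1 = e := by
  have h : ∀ x ∈ ch.sol ν T, Submodule.span ℂ (I.Tan (crv x) (x.p i)) = Submodule.span ℂ
      {v | ∃ γ : ℂ → V ch.M, AnalyticAt ℂ γ 0 ∧ (∀ᶠ t in 𝓝 0, γ t ∈ crv x) ∧ γ 0 = x.p i ∧
        v = deriv γ 0} := fun x hx =>
    (I.lPsi _ _ _ _ _ _ _ hx.1.2.2.1 (hx.1.2.2.2.1 i).1 (hx.1.2.2.2.1 i).2).1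
  refine Iff.trans ?_ isEuler_iff
  unfold Pub.IsEuler
  simp only [span_dir]
  exact ⟨I.isLoc_congr h, I.isLoc_congr fun x hx => (h x hx).symm⟩

theorem lInt (hS : I.LSol) (hN : I.LNm) (hV : I.LVir) (hC : I.LCls') : I.LInt := by
  intro N c F g d n k D r jj ρ' dg h β u a z
  obtain ⟨s1, s2, s3⟩ := hS _ _ _ _ _ _ _ _ _ _ _ _ h
  obtain ⟨O, v, r', m, b⟩ := h.kur
  unfold I.IntH Ch.igd
  refine intg_gen s1 (fun w => ?_) (fun y => ?_) (fun i y w => ?_) fun i e => ?_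
  · refine (hV _ _ _ _ _ _ _ _ _ _ _ _ _ _ _ _ _ b h.crd (fun x hx => ?_) (fun x hx => ?_) w).trans
      (exists_congr fun _ => and_congr_left' T.isVir_iff.symm)
    · rw [T.coe_van]
      exact s2 x hx
    · rw [T.coe_obs]
      exact (hN _ _ _ _ _ _ _ _ _ _ _ _ h x hx).2
  · exact hC _ _ _ _ _ _ _ _ _ _ _ _ h (Quo.out y) β
  · have e := (s3 _ (s1.ge (Quo.out y).2)).2 _ ((Quo.out y).2.1.2.2.2.1 i).1
    have e' := map_eq_fld (Quo.out y) ⟨_, ((Quo.out y).2.1.2.2.2.1 i).1⟩ e.1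
    exact ⟨fun ⟨_, a⟩ => a.trans e'.symm, fun a => ⟨e.1, a.trans e'⟩⟩
  · exact euler_iff i e

end Vale.Agent.P269L.J
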