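import Vale.Agent.P269L.J.Hyp
import Vale.Agent.P269L.J.Int
import Vale.Agent.P269L.J.Chk
import Vale.Agent.P269.Map.PresZ

/-!
# The chart is a presentation: assembly of the leaves
-/

set_option linter.unusedSectionVars false

namespace Vale.Agent.P269L.J

open Set Function Topology Filter MvPolynomial P291Z P269 P269.Ch P269.Tf I

/-- All leaves. -/
structure Lv : Prop where
  eqv : LEqv
  emb : LEmb
  fam : LFam
  sol : LSol
  nm : LNm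
  onto : LOnto
  ker : LKer
  iso : LIsoG
  stb : LStb
  occ : LOcc
  cls : LCls
  cls' : LCls'
  vir : LVir

variable {N c : ℕ} {F : Fin c → MvPolynomial (Fin (N + 1)) ℂ} {dg : Fin c → ℕ} {g d : ℤ}
  {n k D : ℕ}

/-- Every connected stable map of class `β` occurs in the chart of the degree of `β`. -/
theorem Lv.occ' (L : Lv) (h : SmCI F dg) (h0 : (ci F).cone.Nonempty) (hg : 0 ≤ g)
    (hk : (ciF F dg).Big k) (hD : (ciF F dg).BigD k D) {β : BM (ci F).X}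
    (hd : ∀ d' : ℤ, deg (ci F) (fun k _ => dg k) β = d' → 0 ≤ d' → 0 < 2 * g - 2 + n + 3 * d' →
      d' = d) {M : ℕ} {C : Set (Fin M → ℂ)} {m : Unit → ℤ} {p : Fin n → Fin M → ℂ}
    {f : (Fin M → ℂ) → Fin (N + 1) → ℂ} (hs : Stb Pub.scal (ci F).act C (ci F).cone chr g m p f)
    (hc : Cls Pub.scal C (Quo.mk (ci F).act) f (Tf.fn β)) :
    ∃ x ∈ (cH F g d n k D).sol (Fin n) (ci F), ∃ φ,
      Iso Pub.scal tor (ci F).act C (crv x) p x.p f (fld x) φ := by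
  obtain ⟨d', a, x, hx, φ, b⟩ := L.occ N c F dg g n k D M C m p f h hk hD hs hc.1
  obtain ⟨r, jj, ρ', H⟩ := hyp_big n h h0 hg (Int.natCast_nonneg d') a hk hD
  have e := (L.cls' _ _ _ _ _ _ _ _ _ _ _ _ H ⟨x, hx⟩ β).1 (L.cls N c F g _ n M C m p f _ _ _ _ _ φ _
    hs.1 hx.1.2.2.1 hs.2.1 (L.stb _ _ _ _ _ _ _ _ _ _ _ _ H x hx).2.1 b hc)
  obtain rfl := hd d' (deg_of_class (T := ci F) (χ := fun k _ => dg k) h.tg hD ⟨x, hx⟩ e.2)
    (Int.natCast_nonneg d') a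
  exact ⟨x, hx, φ, b⟩

theorem Lv.pres (L : Lv) {r : ℕ} {jj ρ'} (h : @Hyp N c F g d n k D r jj ρ' dg) {β : BM (ci F).X}
    (hd : ∀ d' : ℤ, deg (ci F) (fun k _ => dg k) β = d' → 0 ≤ d' → 0 < 2 * g - 2 + n + 3 * d' →
      d' = d) {V : (Fin n → ℕ × Pub.Co (ci F).X) → ℤ → ℂ}
    (hV : ∀ l d z, (∀ i, Pub.Zc (l i).2) → (Pub.IsGW (Y := (ci F).X) F (ci F).cone
      (Quo.mk (ci F).act) g (Tf.fn β) n l d z ↔ z = V l d)) :
    (dt F g d n k D jj ρ').Pres chr (ci F).act (ci F).cone (ci F).tan g (Quo.mk (ci F).act) (Tf.fn β)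
      fun l => ∑ᶠ d, V l d := by
  obtain ⟨s1, -, s3⟩ := L.sol _ _ _ _ _ _ _ _ _ _ _ _ h
  refine ⟨L.eqv _ _ _ _ _ _ _ _ _ _ _ _ h, L.emb _ _ _ _ _ _ _ _ _ _ _ _ h,
    L.fam _ _ _ _ _ _ _ _ _ _ _ _ h, fun x hx => ?_, fun M C m p f a b => ?_, fun l z a => ?_⟩
  · have hx' := s1.le hx
    exact ⟨⟨fun c hc => ((s3 x hx).2 c hc).2, L.stb _ _ _ _ _ _ _ _ _ _ _ _ h x hx',
      fun y hy => L.iso _ _ _ _ _ _ _ _ _ _ _ _ h x hx' y (s1.le hy)⟩, (s3 x hx).1,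
      (L.nm _ _ _ _ _ _ _ _ _ _ _ _ h x hx').1, L.onto _ _ _ _ _ _ _ _ _ _ _ _ h x hx',
      L.ker _ _ _ _ _ _ _ _ _ _ _ _ h x hx'⟩
  · obtain ⟨x, hx, e⟩ := L.occ' h.sm h.ne h.g0 h.big h.bigD hd a b
    exact ⟨x, s1.ge hx, e⟩
  · choose a' ha using fun i => exists_zs (a i)
    obtain ⟨u, rfl⟩ : ∃ u : Fin n → ℕ, l = fun i => (u i, (a' i).1.1) :=
      ⟨fun i => (l i).1, funext fun i => Prod.ext rfl (ha i).symm⟩
    exact (lInt L.sol L.nm L.vir L.cls' _ _ _ _ _ _ _ _ _ _ _ _ h β u (fun i => (a' i).1) z).trans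
      (ci_sum (T := ci F) (χ := fun k _ => dg k) St.pres h.sm.tg h.big h.bigD ciF_ample hd
        (fun d z => (isGW_iff F).symm.trans (hV _ d z a)) z)

theorem Lv.hasPres (L : Lv) (hF : ∀ k, (F k).IsHomogeneous (dg k))
    (hs : ∀ x ∈ Pub.cone F, LinearIndependent ℂ fun k j => eval x (pderiv j (F k)))
    (hc : ConnectedSpace (Pub.Var F)) : HasPres F := by
  revert hs hc
  refine transport (F := F) (P := fun act S => (∀ x ∈ S, LinearIndependent ℂ fun k j =>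
    eval x (pderiv j (F k))) → ConnectedSpace (Pub.Quo act S) →
    ∀ g β n (V : (Fin n → ℕ × Pub.Co (Pub.Quo act S)) → ℤ → ℂ), 0 ≤ g → Pub.IsBM β →
      (∀ l d z, (∀ i, Pub.Zc (l i).2) →
        (Pub.IsGW F S (Y := Pub.Quo act S) (Quot.mk _) g β n l d z ↔ z = V l d)) →
      I.IsGW (Y := Pub.Quo act S) act S (ci F).tan (Quot.mk _) g β n fun l => ∑ᶠ d, V l d)
    fun hs (hc : ConnectedSpace (ci F).X) g β n V hg hβ hV => ?_
  obtain ⟨⟨x, hx⟩, -⟩ := Quot.exists_rep (Classical.arbitrary (ci F).X)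
  obtain ⟨β, rfl⟩ := (isBM_iff (X := (ci F).X)).1 hβ
  obtain ⟨D, hD⟩ := ((ciF F dg).eventually_bigD 30).exists
  obtain ⟨e, e0, e1, e2⟩ := exists_deg (deg (ci F) (fun k _ => dg k) β) hg n
  obtain ⟨r, jj, ρ', h⟩ := hyp_big n (smCI hF hs hx) ⟨x, hx⟩ hg e0 e1 (ciF_big le_rfl) hD
  exact ⟨_, _, _, _, _, _, _, _, _, _, _, _, _, _, _, _, _, _, _, L.pres h e2 hV⟩

/-- **The Virasoro conjecture with both checks, from the leaves.** -/
theorem Lv.conjC (L : Lv) (N r : ℕ) (d : Fin r → ℕ) (F : Fin r → MvPolynomial (Fin (N + 1)) ℂ)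
    (hF : ∀ k, (F k).IsHomogeneous (d k))
    (hs : ∀ x ∈ Pub.cone F, LinearIndependent ℂ fun k j => eval x (pderiv j (F k)))
    (hc : ConnectedSpace (Pub.Var F)) : ConjC F d (N - r) :=
  conjC_of N r d F hF hs hc (L.hasPres hF hs hc)

end Vale.Agent.P269L.J
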